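import Vale.Agent.P015.R4.H929.Paths

/-! All paths of `G_D`, without a condition on the norms of the vertices. -/

namespace Vale.Agent.P015.R4.H929

open Finset Vale.Agent.P015 Vale.Agent.P015.Cx Filter Topology
open scoped Pointwise

/-- removing few elements changes the energy little -/
theorem energy_remove (W S : Finset GaussianInt) :
    Finset.addEnergy W W ≤ Finset.addEnergy (W \ S) (W \ S) + 4 * (S.card * W.card ^ 2) := by
  classical
  unfold Finset.addEnergy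
  set Q : Finset ((GaussianInt × GaussianInt) × GaussianInt × GaussianInt) :=
    ((W ×ˢ W) ×ˢ W ×ˢ W).filter (fun x => x.1.1 + x.2.1 = x.1.2 + x.2.2) with hQ
  set Q' : Finset ((GaussianInt × GaussianInt) × GaussianInt × GaussianInt) :=
    (((W \ S) ×ˢ (W \ S)) ×ˢ (W \ S) ×ˢ (W \ S)).filter
      (fun x => x.1.1 + x.2.1 = x.1.2 + x.2.2) with hQ'
  have hT : (S ×ˢ W ×ˢ W).card = S.card * W.card ^ 2 := by
    rw [card_product, card_product, sq]
  have hQm : ∀ x ∈ Q, (x.1.1 ∈ W ∧ x.1.2 ∈ W) ∧ (x.2.1 ∈ W ∧ x.2.2 ∈ W) ∧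
      x.1.1 + x.2.1 = x.1.2 + x.2.2 := by
    intro x hx
    rw [hQ, mem_filter, mem_product, mem_product, mem_product] at hx
    exact ⟨hx.1.1, hx.1.2, hx.2⟩
  have h1 : (Q.filter (fun x => x.1.1 ∈ S)).card ≤ S.card * W.card ^ 2 := by
    rw [← hT]
    refine Finset.card_le_card_of_injOn (fun x => (x.1.1, x.1.2, x.2.1)) ?_ ?_
    · intro x hx
      rw [mem_coe, mem_filter] at hx
      have h := hQm x hx.1
      simp only [coe_product, Set.mem_prod, mem_coe]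
      exact ⟨hx.2, h.1.2, h.2.1.1⟩
    · rintro ⟨⟨a, b⟩, c, d⟩ hx ⟨⟨a', b'⟩, c', d'⟩ hx' he
      rw [mem_coe, mem_filter] at hx hx'
      have h := (hQm _ hx.1).2.2
      have h' := (hQm _ hx'.1).2.2
      simp only [Prod.mk.injEq] at he h h' ⊢
      obtain ⟨rfl, rfl, rfl⟩ := he
      refine ⟨⟨rfl, rfl⟩, rfl, ?_⟩
      exact add_left_cancel (h.symm.trans h')
  have h2 : (Q.filter (fun x => x.1.2 ∈ S)).card ≤ S.card * W.card ^ 2 := by
    rw [← hT]
    refine Finset.card_le_card_of_injOn (fun x => (x.1.2, x.1.1, x.2.1)) ?_ ?_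
    · intro x hx
      rw [mem_coe, mem_filter] at hx
      have h := hQm x hx.1
      simp only [coe_product, Set.mem_prod, mem_coe]
      exact ⟨hx.2, h.1.1, h.2.1.1⟩
    · rintro ⟨⟨a, b⟩, c, d⟩ hx ⟨⟨a', b'⟩, c', d'⟩ hx' he
      rw [mem_coe, mem_filter] at hx hx'
      have h := (hQm _ hx.1).2.2
      have h' := (hQm _ hx'.1).2.2
      simp only [Prod.mk.injEq] at he h h' ⊢
      obtain ⟨rfl, rfl, rfl⟩ := he
      refine ⟨⟨rfl, rfl⟩, rfl, ?_⟩
      exact add_left_cancel (h.symm.trans h')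
  have h3 : (Q.filter (fun x => x.2.1 ∈ S)).card ≤ S.card * W.card ^ 2 := by
    rw [← hT]
    refine Finset.card_le_card_of_injOn (fun x => (x.2.1, x.1.1, x.1.2)) ?_ ?_
    · intro x hx
      rw [mem_coe, mem_filter] at hx
      have h := hQm x hx.1
      simp only [coe_product, Set.mem_prod, mem_coe]
      exact ⟨hx.2, h.1.1, h.1.2⟩
    · rintro ⟨⟨a, b⟩, c, d⟩ hx ⟨⟨a', b'⟩, c', d'⟩ hx' he
      rw [mem_coe, mem_filter] at hx hx'
      have h := (hQm _ hx.1).2.2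
      have h' := (hQm _ hx'.1).2.2
      simp only [Prod.mk.injEq] at he h h' ⊢
      obtain ⟨rfl, rfl, rfl⟩ := he
      refine ⟨⟨rfl, rfl⟩, rfl, ?_⟩
      exact add_left_cancel (h.symm.trans h')
  have h4 : (Q.filter (fun x => x.2.2 ∈ S)).card ≤ S.card * W.card ^ 2 := by
    rw [← hT]
    refine Finset.card_le_card_of_injOn (fun x => (x.2.2, x.1.1, x.1.2)) ?_ ?_
    · intro x hx
      rw [mem_coe, mem_filter] at hx
      have h := hQm x hx.1
      simp only [coe_product, Set.mem_prod, mem_coe]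
      exact ⟨hx.2, h.1.1, h.1.2⟩
    · rintro ⟨⟨a, b⟩, c, d⟩ hx ⟨⟨a', b'⟩, c', d'⟩ hx' he
      rw [mem_coe, mem_filter] at hx hx'
      have h := (hQm _ hx.1).2.2
      have h' := (hQm _ hx'.1).2.2
      simp only [Prod.mk.injEq] at he h h' ⊢
      obtain ⟨rfl, rfl, rfl⟩ := he
      refine ⟨⟨rfl, rfl⟩, ?_, rfl⟩
      exact add_left_cancel (h.trans h'.symm)
  have hsub : Q ⊆ Q' ∪ ((Q.filter (fun x => x.1.1 ∈ S) ∪ Q.filter (fun x => x.1.2 ∈ S)) ∪
      (Q.filter (fun x => x.2.1 ∈ S) ∪ Q.filter (fun x => x.2.2 ∈ S))) := by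
    intro x hx
    have h := hQm x hx
    by_cases ha : x.1.1 ∈ S
    · simp only [mem_union, mem_filter]
      exact Or.inr (Or.inl (Or.inl ⟨hx, ha⟩))
    by_cases hb : x.1.2 ∈ S
    · simp only [mem_union, mem_filter]
      exact Or.inr (Or.inl (Or.inr ⟨hx, hb⟩))
    by_cases hc : x.2.1 ∈ S
    · simp only [mem_union, mem_filter]
      exact Or.inr (Or.inr (Or.inl ⟨hx, hc⟩))
    by_cases hd : x.2.2 ∈ S
    · simp only [mem_union, mem_filter]
      exact Or.inr (Or.inr (Or.inr ⟨hx, hd⟩))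
    rw [mem_union]
    left
    rw [hQ', mem_filter, mem_product, mem_product, mem_product]
    exact ⟨⟨⟨Finset.mem_sdiff.2 ⟨h.1.1, ha⟩, Finset.mem_sdiff.2 ⟨h.1.2, hb⟩⟩,
      Finset.mem_sdiff.2 ⟨h.2.1.1, hc⟩, Finset.mem_sdiff.2 ⟨h.2.1.2, hd⟩⟩, h.2.2⟩
  have h5 := Finset.card_le_card hsub
  have h6 := Finset.card_union_le Q' ((Q.filter (fun x => x.1.1 ∈ S) ∪
    Q.filter (fun x => x.1.2 ∈ S)) ∪ (Q.filter (fun x => x.2.1 ∈ S) ∪
    Q.filter (fun x => x.2.2 ∈ S)))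
  have h7 := Finset.card_union_le (Q.filter (fun x => x.1.1 ∈ S) ∪ Q.filter (fun x => x.1.2 ∈ S))
    (Q.filter (fun x => x.2.1 ∈ S) ∪ Q.filter (fun x => x.2.2 ∈ S))
  have h8 := Finset.card_union_le (Q.filter (fun x => x.1.1 ∈ S)) (Q.filter (fun x => x.1.2 ∈ S))
  have h9 := Finset.card_union_le (Q.filter (fun x => x.2.1 ∈ S)) (Q.filter (fun x => x.2.2 ∈ S))
  omega

/-- few Gaussian integers have small norm -/
theorem card_small {S : Finset GaussianInt} {X : ℝ} (hX : 1 ≤ X)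
    (hS : ∀ w ∈ S, ((w.norm : ℤ) : ℝ) ≤ X) : (S.card : ℝ) ≤ 9 * X := by
  set r : ℕ := ⌊Real.sqrt X⌋₊ with hr
  have hsq1 : 1 ≤ Real.sqrt X := Real.one_le_sqrt.2 hX
  have hrX : (r : ℝ) ≤ Real.sqrt X := Nat.floor_le (by linarith)
  have hmem : ∀ a : ℤ, (a : ℝ) ^ 2 ≤ X → a ∈ Finset.Icc (-(r : ℤ)) r := by
    intro a ha
    have h1 : |(a : ℝ)| ≤ Real.sqrt X := Real.abs_le_sqrt ha
    have h2 : ((a.natAbs : ℕ) : ℝ) ≤ Real.sqrt X := by
      rw [Nat.cast_natAbs, Int.cast_abs]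
      exact h1
    have h3 : a.natAbs ≤ r := Nat.le_floor h2
    rw [Finset.mem_Icc]
    omega
  have hsub : S.image (fun w : GaussianInt => (w.re, w.im)) ⊆
      Finset.Icc (-(r : ℤ)) r ×ˢ Finset.Icc (-(r : ℤ)) r := by
    intro u hu
    rw [mem_image] at hu
    obtain ⟨w, hw, rfl⟩ := hu
    have h1 := hS w hw
    have h2 : ((w.norm : ℤ) : ℝ) = (w.re : ℝ) ^ 2 + (w.im : ℝ) ^ 2 := by
      simp only [Zsqrtd.norm]
      push_cast
      ring
    rw [h2] at h1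
    rw [mem_product]
    exact ⟨hmem _ (by nlinarith [sq_nonneg (w.im : ℝ)]), hmem _ (by nlinarith [sq_nonneg (w.re : ℝ)])⟩
  have hinj : Function.Injective (fun w : GaussianInt => (w.re, w.im)) := by
    intro a b hab
    simp only [Prod.mk.injEq] at hab
    exact Zsqrtd.ext_iff.2 hab
  have h1 := Finset.card_le_card hsub
  rw [Finset.card_image_of_injective _ hinj, card_product, Int.card_Icc] at h1
  have h2 : ((r : ℤ) + 1 - -(r : ℤ)).toNat = 2 * r + 1 := by omega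
  rw [h2] at h1
  have h3 : (S.card : ℝ) ≤ (2 * (r : ℝ) + 1) * (2 * (r : ℝ) + 1) := by exact_mod_cast h1
  have h4 : (0 : ℝ) ≤ r := Nat.cast_nonneg r
  have h5 : Real.sqrt X ^ 2 = X := Real.sq_sqrt (by linarith)
  have h6 : 2 * (r : ℝ) + 1 ≤ 3 * Real.sqrt X := by linarith
  calc (S.card : ℝ) ≤ (2 * (r : ℝ) + 1) * (2 * (r : ℝ) + 1) := h3
    _ ≤ (3 * Real.sqrt X) * (3 * Real.sqrt X) := mul_le_mul h6 h6 (by positivity) (by positivity)
    _ = 9 * Real.sqrt X ^ 2 := by ring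
    _ = 9 * X := by rw [h5]

end Vale.Agent.P015.R4.H929
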