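import Vale.Agent.P015.R4.H929.AllPaths

/-! All paths of `G_D`, without a condition on the norms of the vertices: the theorem. -/

namespace Vale.Agent.P015.R4.H929

open Finset Vale.Agent.P015 Vale.Agent.P015.Cx Filter Topology
open scoped Pointwise

theorem num2 {c₁ : ℝ} (D : ℝ) (n₀ : ℕ) (hc₁ : 0 < c₁) : ∀ᶠ l : ℝ in atTop,
    2 ≤ l ∧ 2 * |D| ≤ (l / 2) ^ c₁ ∧ 2 * l ^ (c₁ / 2) ≤ (l / 2) ^ c₁ ∧
      72 * Real.exp (Real.sqrt l) * l ^ (c₁ / 2) ≤ Real.exp l ∧ 2 * (n₀ : ℝ) ≤ Real.exp l := by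
  have hhalf : Tendsto (fun l : ℝ => (l / 2) ^ c₁) atTop atTop :=
    (tendsto_rpow_atTop hc₁).comp (tendsto_id.atTop_div_const (by norm_num))
  have e1 : ∀ᶠ l : ℝ in atTop, 2 * |D| ≤ (l / 2) ^ c₁ := hhalf.eventually_ge_atTop _
  have e2 : ∀ᶠ l : ℝ in atTop, 2 * (2 : ℝ) ^ c₁ ≤ l ^ (c₁ / 2) :=
    (tendsto_rpow_atTop (by positivity)).eventually_ge_atTop _
  have e3 : ∀ᶠ l : ℝ in atTop, l ^ (c₁ / 2) ≤ Real.exp (1 / 4 * l) := by
    have h1 := (isLittleO_rpow_exp_pos_mul_atTop (c₁ / 2) (show (0 : ℝ) < 1 / 4 by norm_num)).bound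
      (show (0 : ℝ) < 1 by norm_num)
    filter_upwards [h1, eventually_ge_atTop (0 : ℝ)] with l hl hl0
    rw [one_mul, Real.norm_of_nonneg (by positivity), Real.norm_of_nonneg (by positivity)] at hl
    exact hl
  have e4 : ∀ᶠ l : ℝ in atTop, 72 ≤ Real.exp (1 / 4 * l) :=
    (Real.tendsto_exp_atTop.comp
      (tendsto_id.const_mul_atTop (show (0 : ℝ) < 1 / 4 by norm_num))).eventually_ge_atTop _
  have e5 : ∀ᶠ l : ℝ in atTop, 2 * (n₀ : ℝ) ≤ Real.exp l :=
    Real.tendsto_exp_atTop.eventually_ge_atTop _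
  filter_upwards [e1, e2, e3, e4, e5, eventually_ge_atTop (16 : ℝ)] with l h1 h2 h3 h4 h5 h16
  have hl0 : 0 < l := by linarith
  refine ⟨by linarith, h1, ?_, ?_, h5⟩
  · rw [Real.div_rpow hl0.le (by norm_num), le_div_iff₀ (by positivity)]
    have h6 : l ^ c₁ = l ^ (c₁ / 2) * l ^ (c₁ / 2) := by
      rw [← Real.rpow_add hl0]
      congr 1
      ring
    rw [h6]
    have h7 : 0 ≤ l ^ (c₁ / 2) := by positivity
    nlinarith
  · have h6 : Real.sqrt l ≤ 1 / 4 * l := by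
      rw [Real.sqrt_le_left (by positivity)]
      nlinarith
    have h7 : Real.exp (Real.sqrt l) ≤ Real.exp (1 / 4 * l) := Real.exp_le_exp.2 h6
    calc 72 * Real.exp (Real.sqrt l) * l ^ (c₁ / 2)
        ≤ Real.exp (1 / 4 * l) * Real.exp (1 / 4 * l) * Real.exp (1 / 4 * l) := by
          refine mul_le_mul (mul_le_mul h4 h7 (by positivity) (by positivity)) h3
            (by positivity) (by positivity)
      _ = Real.exp (1 / 4 * l + 1 / 4 * l + 1 / 4 * l) := by rw [Real.exp_add, Real.exp_add]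
      _ ≤ Real.exp l := Real.exp_le_exp.2 (by linarith)

/-- All paths of `G_D`. -/
theorem paths {c₁ : ℝ} (hc₁ : 0 < c₁) {n₀ : ℕ}
    (h : ∀ W : Finset GaussianInt, n₀ ≤ W.card → ∀ z : GaussianInt,
      (∀ w ∈ W, dist (GaussianInt.toComplex w) (GaussianInt.toComplex z) ≤
        W.card * Real.log W.card ^ c₁) →
      (∀ π : GaussianInt, Prime π → (π.norm : ℝ) ≤ Real.exp (Real.sqrt (Real.log W.card)) →
        ∃ a : GaussianInt, ∀ w ∈ W, ¬ π ∣ w - a) →
      (Finset.addEnergy W W : ℝ) * Real.log W.card ^ c₁ ≤ (W.card : ℝ) ^ 3) (D : ℝ) :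
    ∃ n₁ : ℕ, ∀ n : ℕ, n₁ ≤ n → ∀ g : ℕ → {z : GaussianInt // Prime z},
      (∀ i < n, ∀ j < n, g i = g j → i = j) →
      (∀ j, j + 1 < n → (moatGraph D).Adj (g j) (g (j + 1))) →
      (Finset.addEnergy ((range n).image fun j => (g j).1) ((range n).image fun j => (g j).1) : ℝ) *
        Real.log n ^ (c₁ / 2) ≤ (n : ℝ) ^ 3 := by
  obtain ⟨n₁, hn₁⟩ := Filter.eventually_atTop.1
    ((Real.tendsto_log_atTop.comp tendsto_natCast_atTop_atTop).eventually (num2 D n₀ hc₁))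
  refine ⟨max n₁ 1, fun n hn g hinj hadj => ?_⟩
  obtain ⟨hl2, hD, hc, hX, hn0'⟩ := hn₁ n ((le_max_left _ _).trans hn)
  simp only [Function.comp] at hl2 hD hc hX hn0'
  have hn1 : 1 ≤ n := (le_max_right _ _).trans hn
  have hn0 : (0 : ℝ) < n := by exact_mod_cast hn1
  rw [Real.exp_log hn0] at hX hn0'
  set l : ℝ := Real.log n with hl
  have hl0 : 0 < l := by linarith
  set X : ℝ := Real.exp (Real.sqrt l) with hXdef
  have hX1 : 1 ≤ X := Real.one_le_exp (Real.sqrt_nonneg l)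
  have hlc1 : 1 ≤ l ^ (c₁ / 2) := Real.one_le_rpow (by linarith) (by positivity)
  set W : Finset GaussianInt := (range n).image fun j => (g j).1 with hW
  have hcard : W.card = n := by
    rw [hW, Finset.card_image_of_injOn, card_range]
    intro i hi j hj hij
    rw [mem_coe, mem_range] at hi hj
    exact hinj i hi j hj (Subtype.ext hij)
  set S : Finset GaussianInt := W.filter (fun w => ((w.norm : ℤ) : ℝ) ≤ X) with hS
  have hSW : S ⊆ W := Finset.filter_subset _ _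
  have hScard : (S.card : ℝ) ≤ 9 * X := card_small hX1 (fun w hw => (mem_filter.1 hw).2)
  set W' : Finset GaussianInt := W \ S with hW'
  have hW'c : (W'.card : ℝ) = n - S.card := by
    have h1 := Finset.card_sdiff_add_card_eq_card hSW
    rw [hcard] at h1
    rw [← h1]
    push_cast
    ring
  have hXn : 72 * X ≤ n := by
    refine le_trans ?_ hX
    have : 0 < 72 * X := by positivity
    nlinarith
  have hW'half : (n : ℝ) / 2 ≤ W'.card := by
    rw [hW'c]
    linarith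
  have hW'n : (W'.card : ℝ) ≤ n := by
    rw [hW'c]
    have : (0 : ℝ) ≤ S.card := Nat.cast_nonneg _
    linarith
  have hW'0 : (0 : ℝ) < W'.card := by linarith
  have hlog' : l / 2 ≤ Real.log W'.card := by
    have h1 : Real.log ((n : ℝ) / 2) ≤ Real.log W'.card := Real.log_le_log (by positivity) hW'half
    rw [Real.log_div hn0.ne' (by norm_num), ← hl] at h1
    have := Real.log_two_lt_d9
    linarith
  have hlog'' : Real.log W'.card ≤ l := Real.log_le_log hW'0 hW'n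
  have hpow : (l / 2) ^ c₁ ≤ Real.log W'.card ^ c₁ :=
    Real.rpow_le_rpow (by positivity) hlog' hc₁.le
  have key := h W' (by
      have : (n₀ : ℝ) ≤ W'.card := by linarith
      exact_mod_cast this) (g 0).1 (by
      intro w hw
      rw [hW', Finset.mem_sdiff, hW, mem_image] at hw
      obtain ⟨⟨j, hj, rfl⟩, -⟩ := hw
      rw [mem_range] at hj
      refine (dist_walk_le (D := D) (n := n) (g := fun j => (g j).1)
        (fun j hj => (hadj j hj).2) j hj).trans ?_
      have hj' : (j : ℝ) ≤ n := by exact_mod_cast hj.le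
      have h2 : D * j ≤ |D| * j := mul_le_mul_of_nonneg_right (le_abs_self D) (Nat.cast_nonneg j)
      have h3 : |D| * (j : ℝ) ≤ |D| * n := mul_le_mul_of_nonneg_left hj' (abs_nonneg D)
      have h4 : |D| * (n : ℝ) ≤ |D| * (2 * W'.card) :=
        mul_le_mul_of_nonneg_left (by linarith) (abs_nonneg D)
      have h5 : (W'.card : ℝ) * (2 * |D|) ≤ W'.card * Real.log W'.card ^ c₁ :=
        mul_le_mul_of_nonneg_left (hD.trans hpow) hW'0.le
      linarith) (by
      intro π hπ hπn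
      refine ⟨0, fun w hw hdvd => ?_⟩
      rw [hW', Finset.mem_sdiff] at hw
      have hwX : ¬ ((w.norm : ℤ) : ℝ) ≤ X := fun hcon => hw.2 (mem_filter.2 ⟨hw.1, hcon⟩)
      have hwp : Prime w := by
        have := hw.1
        rw [hW, mem_image] at this
        obtain ⟨j, -, rfl⟩ := this
        exact (g j).2
      rw [sub_zero] at hdvd
      have h1 : Associated π w := hπ.irreducible.associated_of_dvd hwp.irreducible hdvd
      have h2 : π.norm = w.norm := Zsqrtd.norm_eq_of_associated (by norm_num) h1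
      apply hwX
      rw [← h2]
      refine hπn.trans ?_
      exact Real.exp_le_exp.2 (Real.sqrt_le_sqrt hlog''))
  have hE : ((Finset.addEnergy W W : ℕ) : ℝ) ≤
      Finset.addEnergy W' W' + 4 * ((S.card : ℝ) * (n : ℝ) ^ 2) := by
    have h1 := energy_remove W S
    rw [hcard] at h1
    exact_mod_cast h1
  have hE0 : (0 : ℝ) ≤ Finset.addEnergy W' W' := Nat.cast_nonneg _
  have h1 : (Finset.addEnergy W' W' : ℝ) * (2 * l ^ (c₁ / 2)) ≤ (n : ℝ) ^ 3 := by
    refine (mul_le_mul_of_nonneg_left (hc.trans hpow) hE0).trans (key.trans ?_)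
    exact pow_le_pow_left₀ hW'0.le hW'n 3
  have h2 : 4 * ((S.card : ℝ) * (n : ℝ) ^ 2) * l ^ (c₁ / 2) ≤ (n : ℝ) ^ 3 / 2 := by
    calc 4 * ((S.card : ℝ) * (n : ℝ) ^ 2) * l ^ (c₁ / 2)
        ≤ 4 * ((9 * X) * (n : ℝ) ^ 2) * l ^ (c₁ / 2) := by
          refine mul_le_mul_of_nonneg_right ?_ (by positivity)
          refine mul_le_mul_of_nonneg_left ?_ (by norm_num)
          exact mul_le_mul_of_nonneg_right hScard (by positivity)
      _ = (72 * X * l ^ (c₁ / 2)) * ((n : ℝ) ^ 2 / 2) := by ring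
      _ ≤ n * ((n : ℝ) ^ 2 / 2) := mul_le_mul_of_nonneg_right hX (by positivity)
      _ = (n : ℝ) ^ 3 / 2 := by ring
  calc (Finset.addEnergy W W : ℝ) * l ^ (c₁ / 2)
      ≤ (Finset.addEnergy W' W' + 4 * ((S.card : ℝ) * (n : ℝ) ^ 2)) * l ^ (c₁ / 2) :=
        mul_le_mul_of_nonneg_right hE (by positivity)
    _ = Finset.addEnergy W' W' * l ^ (c₁ / 2) +
        4 * ((S.card : ℝ) * (n : ℝ) ^ 2) * l ^ (c₁ / 2) := by ring
    _ ≤ (n : ℝ) ^ 3 := by linarith

/-- The final theorem. -/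
theorem main2 : ∃ c : ℝ, 0 < c ∧
    (∃ n₀ : ℕ, ∀ W : Finset GaussianInt, n₀ ≤ W.card → ∀ z : GaussianInt,
      (∀ w ∈ W, dist (GaussianInt.toComplex w) (GaussianInt.toComplex z) ≤
        W.card * Real.log W.card ^ c) →
      (∀ π : GaussianInt, Prime π → (π.norm : ℝ) ≤ Real.exp (Real.sqrt (Real.log W.card)) →
        ∃ a : GaussianInt, ∀ w ∈ W, ¬ π ∣ w - a) →
      (Finset.addEnergy W W : ℝ) * Real.log W.card ^ c ≤ (W.card : ℝ) ^ 3 ∧
      ∀ A ⊆ W,
        (A.card : ℝ) ^ 4 * Real.log W.card ^ c ≤ (W.card : ℝ) ^ 3 * ((A + A).card : ℝ) ∧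
        (A.card : ℝ) ^ 4 * Real.log W.card ^ c ≤ (W.card : ℝ) ^ 3 * ((A - A).card : ℝ)) ∧
    (∀ D : ℝ, ∃ n₀ : ℕ, ∀ n : ℕ, n₀ ≤ n → ∀ g : ℕ → {z : GaussianInt // Prime z},
      (∀ i < n, ∀ j < n, g i = g j → i = j) →
      (∀ j, j + 1 < n → (moatGraph D).Adj (g j) (g (j + 1))) →
      (Finset.addEnergy ((range n).image fun j => (g j).1) ((range n).image fun j => (g j).1) : ℝ) *
        Real.log n ^ c ≤ (n : ℝ) ^ 3 ∧
      ∀ A ⊆ (range n).image fun j => (g j).1,
        (A.card : ℝ) ^ 4 * Real.log n ^ c ≤ (n : ℝ) ^ 3 * ((A + A).card : ℝ) ∧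
        (A.card : ℝ) ^ 4 * Real.log n ^ c ≤ (n : ℝ) ^ 3 * ((A - A).card : ℝ)) := by
  obtain ⟨c₁, hc₁, n₀, hn₀, h⟩ := sets
  refine ⟨c₁ / 2, by positivity, ⟨n₀, fun W hW z hz hπ => ?_⟩, fun D => ?_⟩
  · have hn3 : 3 ≤ W.card := hn₀.trans hW
    have hn3' : (3 : ℝ) ≤ W.card := by exact_mod_cast hn3
    have hl1 : 1 ≤ Real.log W.card := by
      rw [Real.le_log_iff_exp_le (by linarith)]
      have := Real.exp_one_lt_d9
      linarith
    have hmono : Real.log W.card ^ (c₁ / 2) ≤ Real.log W.card ^ c₁ :=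
      Real.rpow_le_rpow_of_exponent_le hl1 (by linarith)
    have h1 := (h W hW z (fun w hw => (hz w hw).trans
      (mul_le_mul_of_nonneg_left hmono (Nat.cast_nonneg _))) hπ).1
    have h2 : (Finset.addEnergy W W : ℝ) * Real.log W.card ^ (c₁ / 2) ≤ (W.card : ℝ) ^ 3 :=
      (mul_le_mul_of_nonneg_left hmono (Nat.cast_nonneg _)).trans h1
    exact ⟨h2, fun A hA => sumset_bound hA (by positivity) h2⟩
  · obtain ⟨n₁, hn₁⟩ := paths hc₁ (fun W hW z hz hπ => (h W hW z hz hπ).1) D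
    refine ⟨n₁, fun n hn g hinj hadj => ?_⟩
    have h1 := hn₁ n hn g hinj hadj
    refine ⟨h1, fun A hA => ?_⟩
    have hcard : ((range n).image fun j => (g j).1).card = n := by
      rw [Finset.card_image_of_injOn, card_range]
      intro i hi j hj hij
      rw [mem_coe, mem_range] at hi hj
      exact hinj i hi j hj (Subtype.ext hij)
    have h2 := sumset_bound hA (L := Real.log n ^ (c₁ / 2))
      (Real.rpow_nonneg (Real.log_natCast_nonneg n) _) (by rw [hcard]; exact h1)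
    rw [hcard] at h2
    exact h2

end Vale.Agent.P015.R4.H929
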