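import Mathlib.Analysis.SpecialFunctions.Pow.Asymptotics

/-! The choice of the parameters. -/

namespace Vale.Agent.P015.R4.H929

open Filter Topology

theorem numerics {C cs : ℝ} {M : ℕ} (hC : 1 ≤ C) (hM : 2 ≤ M) (hcs : 0 < cs) :
    ∃ c : ℝ, 0 < c ∧ c ≤ 1 ∧ ∀ᶠ l : ℝ in atTop, 1 ≤ l ∧ 2 ≤ l ^ c ∧
      (∃ m w : ℕ, 2 ≤ w ∧ 5 * l ≤ w ∧ (M : ℝ) ^ (m + 1) * Real.log w ≤ Real.sqrt l ∧
        2 * cs * (l ^ c) ^ C < 2 ^ m) ∧
      2 * Real.sqrt l * Real.log (l ^ c) ^ 4 * C + C * Real.log (l ^ c) ^ 5 ≤ l ∧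
      Real.log (2 * C ^ 2) ≤ l := by
  have hM' : (2 : ℝ) ≤ M := by exact_mod_cast hM
  have hlM : 0 < Real.log M := Real.log_pos (by linarith)
  have hl2 : 0 < Real.log 2 := Real.log_pos (by norm_num)
  set θ : ℝ := Real.log 2 / Real.log M with hθ
  have hθ0 : 0 < θ := div_pos hl2 hlM
  have hθ1 : θ ≤ 1 := (div_le_one hlM).2 (Real.log_le_log (by norm_num) hM')
  have hC0 : 0 < C := by linarith
  have hc1 : θ / (8 * C) ≤ 1 := by
    rw [div_le_one (by positivity)]
    linarith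
  refine ⟨θ / (8 * C), by positivity, hc1, ?_⟩
  set c : ℝ := θ / (8 * C) with hc
  have hc0 : 0 < c := by positivity
  have e1 : ∀ᶠ l : ℝ in atTop, 2 ≤ l ^ c := (tendsto_rpow_atTop hc0).eventually_ge_atTop 2
  have e2 : ∀ᶠ l : ℝ in atTop, 8 * cs < l ^ (θ / 8) :=
    (tendsto_rpow_atTop (by positivity)).eventually_gt_atTop _
  have e3 : ∀ᶠ l : ℝ in atTop, 8 * Real.log M ≤ Real.log l :=
    Real.tendsto_log_atTop.eventually_ge_atTop _
  have e4 : ∀ᶠ l : ℝ in atTop, 2 + 3 * C ≤ l ^ (1 / 20 : ℝ) :=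
    (tendsto_rpow_atTop (by norm_num)).eventually_ge_atTop _
  have e5 : ∀ᶠ l : ℝ in atTop, Real.log l ≤ l ^ (1 / 20 : ℝ) := by
    have h1 := (isLittleO_log_rpow_atTop (show (0 : ℝ) < 1 / 20 by norm_num)).bound
      (show (0 : ℝ) < 1 by norm_num)
    filter_upwards [h1, eventually_ge_atTop (1 : ℝ)] with l hl hl1
    rw [one_mul, Real.norm_of_nonneg (Real.log_nonneg hl1),
      Real.norm_of_nonneg (by positivity)] at hl
    exact hl
  filter_upwards [e1, e2, e3, e4, e5, eventually_ge_atTop (1 : ℝ),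
    eventually_ge_atTop (Real.log (2 * C ^ 2))] with l h1 h2 h3 h4 h5 hl1 h7
  have hl0 : 0 < l := by linarith
  have hlog0 : 0 ≤ Real.log l := Real.log_nonneg hl1
  set t : ℝ := l ^ (1 / 20 : ℝ) with ht
  have ht0 : 0 < t := by positivity
  have ht5 : (5 : ℝ) ≤ t := by linarith
  have ht20 : t ^ 20 = l := by
    rw [ht, ← Real.rpow_natCast, ← Real.rpow_mul hl0.le]
    norm_num
  have hsq : Real.sqrt l = t ^ 10 := by
    rw [← ht20, show t ^ 20 = (t ^ 10) ^ 2 by ring]
    exact Real.sqrt_sq (by positivity)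
  have hlogt : Real.log t = Real.log l / 20 := by
    rw [ht, Real.log_rpow hl0]
    ring
  refine ⟨hl1, h1, ⟨⌊Real.log l / (4 * Real.log M) - 1⌋₊, ⌈5 * l⌉₊, ?_, Nat.le_ceil _, ?_, ?_⟩,
    ?_, h7⟩
  · have h8 : (5 : ℝ) ≤ (⌈5 * l⌉₊ : ℝ) := by
      refine le_trans ?_ (Nat.le_ceil _)
      linarith
    have : 5 ≤ ⌈5 * l⌉₊ := by exact_mod_cast h8
    omega
  · have h8 : (⌊Real.log l / (4 * Real.log M) - 1⌋₊ : ℝ) ≤ Real.log l / (4 * Real.log M) - 1 := by
      refine Nat.floor_le ?_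
      rw [sub_nonneg, le_div_iff₀ (by positivity)]
      linarith
    have h9 : (M : ℝ) ^ (⌊Real.log l / (4 * Real.log M) - 1⌋₊ + 1) ≤ t ^ 5 := by
      rw [← Real.log_le_log_iff (by positivity) (by positivity), Real.log_pow, Real.log_pow, hlogt]
      push_cast
      have h10 : (⌊Real.log l / (4 * Real.log M) - 1⌋₊ + 1 : ℝ) * Real.log M ≤
          Real.log l / (4 * Real.log M) * Real.log M :=
        mul_le_mul_of_nonneg_right (by linarith) hlM.le
      have h11 : Real.log l / (4 * Real.log M) * Real.log M = Real.log l / 4 := by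
        field_simp
      linarith
    have h12 : Real.log (⌈5 * l⌉₊ : ℝ) ≤ t ^ 5 := by
      have h13 : (⌈5 * l⌉₊ : ℝ) ≤ 6 * l := by
        have := Nat.ceil_lt_add_one (show 0 ≤ 5 * l by positivity)
        linarith
      have h14 : (0 : ℝ) < (⌈5 * l⌉₊ : ℝ) := by
        have := Nat.le_ceil (5 * l)
        linarith
      refine (Real.log_le_log h14 h13).trans ?_
      rw [Real.log_mul (by norm_num) hl0.ne']
      have h15 : Real.log 6 ≤ 5 := by
        have := Real.log_le_sub_one_of_pos (show (0 : ℝ) < 6 by norm_num)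
        linarith
      have h16 : t * 5 ^ 4 ≤ t * t ^ 4 :=
        mul_le_mul_of_nonneg_left (pow_le_pow_left₀ (by norm_num) ht5 4) ht0.le
      have h17 : t * t ^ 4 = t ^ 5 := by ring
      linarith
    rw [hsq, show t ^ 10 = t ^ 5 * t ^ 5 by ring]
    exact mul_le_mul h9 h12 (Real.log_natCast_nonneg _) (by positivity)
  · have h8 : Real.log l / (4 * Real.log M) - 2 < (⌊Real.log l / (4 * Real.log M) - 1⌋₊ : ℝ) := by
      have := Nat.lt_floor_add_one (Real.log l / (4 * Real.log M) - 1)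
      linarith
    have h9 : (l ^ c) ^ C = l ^ (θ / 8) := by
      rw [← Real.rpow_mul hl0.le, hc]
      congr 1
      field_simp
    have h10 : l ^ (θ / 8) * l ^ (θ / 8) / 4 < 2 ^ (⌊Real.log l / (4 * Real.log M) - 1⌋₊) := by
      have h11 : l ^ (θ / 8) * l ^ (θ / 8) = l ^ (θ / 4) := by
        rw [← Real.rpow_add hl0]
        congr 1
        ring
      have hlog4 : Real.log 4 = 2 * Real.log 2 := by
        rw [← Real.log_rpow (by norm_num)]
        norm_num
      rw [h11, ← Real.log_lt_log_iff (by positivity) (by positivity),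
        Real.log_div (by positivity) (by norm_num), Real.log_rpow hl0, Real.log_pow, hlog4]
      have h12 : (Real.log l / (4 * Real.log M) - 2) * Real.log 2 <
          (⌊Real.log l / (4 * Real.log M) - 1⌋₊ : ℝ) * Real.log 2 :=
        mul_lt_mul_of_pos_right h8 hl2
      refine lt_of_eq_of_lt ?_ h12
      rw [hθ]
      field_simp
    rw [h9]
    refine lt_trans ?_ h10
    have h13 : 0 < l ^ (θ / 8) := by positivity
    nlinarith
  · have hL : Real.log (l ^ c) = c * Real.log l := Real.log_rpow hl0 c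
    have h8 : Real.log (l ^ c) ≤ t := by
      rw [hL]
      nlinarith
    have h9 : 0 ≤ Real.log (l ^ c) := by
      rw [hL]
      positivity
    have h10 : Real.log (l ^ c) ^ 4 ≤ t ^ 4 := pow_le_pow_left₀ h9 h8 4
    have h11 : Real.log (l ^ c) ^ 5 ≤ t ^ 5 := pow_le_pow_left₀ h9 h8 5
    rw [hsq]
    have h12 : 2 * t ^ 10 * Real.log (l ^ c) ^ 4 * C ≤ 2 * t ^ 10 * t ^ 4 * C := by
      refine mul_le_mul_of_nonneg_right ?_ hC0.le
      exact mul_le_mul_of_nonneg_left h10 (by positivity)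
    have h13 : C * Real.log (l ^ c) ^ 5 ≤ C * t ^ 5 := mul_le_mul_of_nonneg_left h11 hC0.le
    have h14 : t ^ 5 ≤ t ^ 14 := pow_le_pow_right₀ (by linarith) (by norm_num)
    have h15 : C * t ^ 5 ≤ C * t ^ 14 := mul_le_mul_of_nonneg_left h14 hC0.le
    have h16 : 3 * C * t ^ 14 ≤ t * t ^ 14 := mul_le_mul_of_nonneg_right (by linarith) (by positivity)
    have h17 : t ^ 15 ≤ t ^ 20 := pow_le_pow_right₀ (by linarith) (by norm_num)
    have h18 : t * t ^ 14 = t ^ 15 := by ring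
    have h19 : 2 * t ^ 10 * t ^ 4 * C = 2 * (C * t ^ 14) := by ring
    have h20 : 3 * C * t ^ 14 = 3 * (C * t ^ 14) := by ring
    linarith

end Vale.Agent.P015.R4.H929
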