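import Vale.Agent.P015.R4.H929.Sieve
import Vale.Agent.P015.R4.H929.Num
import Vale.Agent.P015.R2.H632.EnergyAP
import Mathlib.Combinatorics.Additive.Energy

/-! Sets that miss a residue class modulo many Gaussian primes have small additive energy. -/

namespace Vale.Agent.P015.R4.H929

open Finset Vale.Agent.P015 Vale.Agent.P015.Cx Filter Topology

/-- coordinates relative to `z` -/
def co (z w : GaussianInt) : ℤ × ℤ := ((w - z).re, (w - z).im)

theorem co_injective (z : GaussianInt) : Function.Injective (co z) := by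
  intro a b h
  simp only [co, Prod.mk.injEq] at h
  have h1 : a - z = b - z := Zsqrtd.ext_iff.2 h
  simpa using h1

theorem co_energy (z : GaussianInt) (W : Finset GaussianInt) :
    Finset.addEnergy (W.image (co z)) (W.image (co z)) = Finset.addEnergy W W := by
  unfold Finset.addEnergy
  symm
  refine Finset.card_bij (fun x _ => ((co z x.1.1, co z x.1.2), (co z x.2.1, co z x.2.2))) ?_ ?_ ?_
  · rintro ⟨⟨a, b⟩, c, d⟩ h
    simp only [mem_filter, mem_product] at h ⊢
    refine ⟨⟨⟨mem_image_of_mem _ h.1.1.1, mem_image_of_mem _ h.1.1.2⟩,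
      mem_image_of_mem _ h.1.2.1, mem_image_of_mem _ h.1.2.2⟩, ?_⟩
    have h1 := Zsqrtd.ext_iff.1 h.2
    simp only [Zsqrtd.re_add, Zsqrtd.im_add] at h1
    simp only [co, Prod.mk_add_mk, Prod.mk.injEq, Zsqrtd.re_sub, Zsqrtd.im_sub]
    constructor <;> linarith [h1.1, h1.2]
  · rintro ⟨⟨a, b⟩, c, d⟩ _ ⟨⟨a', b'⟩, c', d'⟩ _ h
    simp only [Prod.mk.injEq] at h
    rw [co_injective z h.1.1, co_injective z h.1.2, co_injective z h.2.1, co_injective z h.2.2]
  · rintro ⟨⟨a, b⟩, c, d⟩ h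
    simp only [mem_filter, mem_product, mem_image] at h
    obtain ⟨⟨⟨⟨a', ha', rfl⟩, b', hb', rfl⟩, ⟨c', hc', rfl⟩, d', hd', rfl⟩, h2⟩ := h
    refine ⟨⟨⟨a', b'⟩, c', d'⟩, ?_, rfl⟩
    simp only [mem_filter, mem_product]
    refine ⟨⟨⟨ha', hb'⟩, hc', hd'⟩, ?_⟩
    simp only [co, Prod.mk_add_mk, Prod.mk.injEq, Zsqrtd.re_sub, Zsqrtd.im_sub] at h2
    rw [Zsqrtd.ext_iff]
    simp only [Zsqrtd.re_add, Zsqrtd.im_add]
    constructor <;> linarith [h2.1, h2.2]

theorem re_im_le (w z : GaussianInt) :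
    |((w - z).re : ℝ)| ≤ dist (GaussianInt.toComplex w) (GaussianInt.toComplex z) ∧
    |((w - z).im : ℝ)| ≤ dist (GaussianInt.toComplex w) (GaussianInt.toComplex z) := by
  rw [dist_eq_norm, ← map_sub]
  constructor
  · have h := Complex.abs_re_le_norm (GaussianInt.toComplex (w - z))
    rwa [← GaussianInt.intCast_re] at h
  · have h := Complex.abs_im_le_norm (GaussianInt.toComplex (w - z))
    rwa [← GaussianInt.intCast_im] at h

/-- The energy bound. -/
theorem energy_bound : ∃ c : ℝ, 0 < c ∧ ∃ n₀ : ℕ, 3 ≤ n₀ ∧ ∀ W : Finset GaussianInt,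
    n₀ ≤ W.card → ∀ z : GaussianInt,
    (∀ w ∈ W, dist (GaussianInt.toComplex w) (GaussianInt.toComplex z) ≤
      W.card * Real.log W.card ^ c) →
    (∀ p : ℕ, p.Prime → p % 4 = 1 → (p : ℝ) ≤ Real.exp (Real.sqrt (Real.log W.card)) →
      (W.image (phi p (root p true))).card < p) →
    (Finset.addEnergy W W : ℝ) * Real.log W.card ^ c ≤ (W.card : ℝ) ^ 3 := by
  obtain ⟨C, hC, hAP⟩ := R2.H632.energy_ap
  obtain ⟨M, hM, hfam⟩ := exists_family
  obtain ⟨c, hc0, hc1, hnum⟩ := numerics hC hM Vale.Agent.P001.cLS_pos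
  obtain ⟨n₀, hn₀⟩ := Filter.eventually_atTop.1
    ((Real.tendsto_log_atTop.comp tendsto_natCast_atTop_atTop).eventually hnum)
  refine ⟨c, hc0, max n₀ 3, le_max_right _ _, fun W hW z hdist hlt => ?_⟩
  obtain ⟨hl1, hL2, ⟨m, w, hw2, hlw, hy, h2m⟩, hcond, hC2⟩ := hn₀ W.card ((le_max_left _ _).trans hW)
  simp only [Function.comp] at hl1 hL2 hlw hy h2m hcond hC2
  have hn3 : 3 ≤ W.card := (le_max_right _ _).trans hW
  have hn0 : (0 : ℝ) < W.card := by
    have : 0 < W.card := by omega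
    exact_mod_cast this
  have hn1 : (1 : ℝ) ≤ W.card := by
    have : 1 ≤ W.card := by omega
    exact_mod_cast this
  set l : ℝ := Real.log W.card with hl
  have hl0 : 0 < l := by linarith
  set L : ℝ := l ^ c with hLdef
  have hL0 : 0 < L := by linarith
  have hLl : L ≤ l := by
    calc L = l ^ c := rfl
      _ ≤ l ^ (1 : ℝ) := Real.rpow_le_rpow_of_exponent_le hl1 hc1
      _ = l := Real.rpow_one l
  by_contra hcon
  rw [not_le] at hcon
  set y : ℕ := w ^ M ^ (m + 1) with hydef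
  have hw0 : (0 : ℝ) < w := by
    have : 0 < w := by omega
    exact_mod_cast this
  have hy1 : 1 ≤ y := Nat.one_le_pow _ _ (by omega)
  have hy0 : (0 : ℝ) < y := by exact_mod_cast hy1
  have hlogy : Real.log y ≤ Real.sqrt l := by
    rw [hydef]
    push_cast
    rw [Real.log_pow]
    push_cast
    exact hy
  have hyexp : (y : ℝ) ≤ Real.exp (Real.sqrt l) := by
    rw [← Real.exp_log hy0]
    exact Real.exp_le_exp.2 hlogy
  set K : ℕ := ⌊(W.card : ℝ) * L⌋₊ with hKdef
  have hnL : 1 ≤ (W.card : ℝ) * L := by nlinarith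
  have hK1 : 1 ≤ K := Nat.le_floor (by exact_mod_cast hnL)
  have hKle : (K : ℝ) ≤ W.card * L := Nat.floor_le (by positivity)
  have hcard : (W.image (co z)).card = W.card := Finset.card_image_of_injective _ (co_injective z)
  have hint : ∀ a : ℤ, |(a : ℝ)| ≤ W.card * L → |a| ≤ (K : ℤ) := by
    intro a ha
    have h1 : ((a.natAbs : ℕ) : ℝ) ≤ W.card * L := by
      rw [Nat.cast_natAbs, Int.cast_abs]
      exact ha
    have h2 : a.natAbs ≤ K := Nat.le_floor h1
    rw [Int.abs_eq_natAbs]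
    exact_mod_cast h2
  have hbox : ∀ u ∈ W.image (co z), |u.1| ≤ (K : ℤ) ∧ |u.2| ≤ (K : ℤ) := by
    intro u hu
    rw [mem_image] at hu
    obtain ⟨a, ha, rfl⟩ := hu
    have h1 := re_im_le a z
    have h2 := hdist a ha
    exact ⟨hint _ (h1.1.trans h2), hint _ (h1.2.trans h2)⟩
  have hyy : ((y ^ 2 : ℕ) : ℝ) = (y : ℝ) ^ 2 := by push_cast; rfl
  obtain ⟨x, v, hv, hv1, hv2, hJ⟩ := hAP (W.image (co z)) K L (y ^ 2) hL2 hK1 hbox (by
      rw [hcard]
      linarith) (by
      rw [hcard, co_energy]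
      linarith) (Nat.one_le_pow _ _ hy1) (by
      rw [hcard, hyy, Real.log_pow]
      refine le_trans ?_ hcond
      refine add_le_add ?_ le_rfl
      have h9 : 0 ≤ Real.log L ^ 4 := by positivity
      refine mul_le_mul_of_nonneg_right ?_ (by linarith)
      refine mul_le_mul_of_nonneg_right ?_ h9
      push_cast
      linarith)
  -- the progression in the Gaussian integers
  set vg : GaussianInt := ⟨v.1, v.2⟩ with hvg
  set xg : GaussianInt := z + ⟨x.1, x.2⟩ with hxg
  have hvg0 : vg ≠ 0 := by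
    intro h
    apply hv
    rw [Zsqrtd.ext_iff] at h
    exact Prod.ext h.1 h.2
  have hmem : ∀ j : ℕ, x + j • v ∈ W.image (co z) → xg + (((j : ℕ) : ℤ) : GaussianInt) * vg ∈ W := by
    intro j hj
    rw [mem_image] at hj
    obtain ⟨a, ha, hax⟩ := hj
    have h1 : a = xg + (((j : ℕ) : ℤ) : GaussianInt) * vg := by
      have h2 := congrArg Prod.fst hax
      have h3 := congrArg Prod.snd hax
      simp only [co, Prod.fst_add, Prod.snd_add, Prod.smul_fst, Prod.smul_snd,
        Zsqrtd.re_sub, Zsqrtd.im_sub] at h2 h3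
      rw [nsmul_eq_mul] at h2 h3
      rw [Zsqrtd.ext_iff]
      constructor
      · simp [hxg, hvg]
        linarith
      · simp [hxg, hvg]
        linarith
    rw [← h1]
    exact ha
  set B₀ : Finset ℕ := (range (y ^ 2)).filter (fun j => x + j • v ∈ W.image (co z)) with hB₀
  set B : Finset ℤ := B₀.image (fun j : ℕ => (j : ℤ)) with hB
  have hBcard : B.card = B₀.card := Finset.card_image_of_injective _ Nat.cast_injective
  have hBr : ∀ j ∈ B, 0 ≤ j ∧ j < ((y ^ 2 : ℕ) : ℤ) := by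
    intro j hj
    rw [hB, mem_image] at hj
    obtain ⟨i, hi, rfl⟩ := hj
    rw [hB₀, mem_filter, mem_range] at hi
    exact ⟨Int.natCast_nonneg i, by exact_mod_cast hi.1⟩
  have hBW : ∀ j ∈ B, xg + (j : GaussianInt) * vg ∈ W := by
    intro j hj
    rw [hB, mem_image] at hj
    obtain ⟨i, hi, rfl⟩ := hj
    rw [hB₀, mem_filter] at hi
    exact hmem i hi.2
  -- the norm of the step
  have hlogv : Real.log (vg.norm : ℝ) ≤ w := by
    have e : ((vg.norm : ℤ) : ℝ) = (v.1 : ℝ) ^ 2 + (v.2 : ℝ) ^ 2 := by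
      simp only [hvg, Zsqrtd.norm]
      push_cast
      ring
    have hCK : C * K ≤ C * (W.card * L) := mul_le_mul_of_nonneg_left hKle (by linarith)
    have hCK2 : C * (W.card * L) ≤ C * (W.card * l) := by
      refine mul_le_mul_of_nonneg_left ?_ (by linarith)
      exact mul_le_mul_of_nonneg_left hLl hn0.le
    have h1 : (v.1 : ℝ) ^ 2 ≤ (C * (W.card * l)) ^ 2 := by
      rw [← sq_abs (v.1 : ℝ)]
      refine pow_le_pow_left₀ (abs_nonneg _) ?_ 2
      have : |(v.1 : ℝ)| ≤ C * K := by exact_mod_cast hv1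
      linarith
    have h2 : (v.2 : ℝ) ^ 2 ≤ (C * (W.card * l)) ^ 2 := by
      rw [← sq_abs (v.2 : ℝ)]
      refine pow_le_pow_left₀ (abs_nonneg _) ?_ 2
      have : |(v.2 : ℝ)| ≤ C * K := by exact_mod_cast hv2
      linarith
    have h3 : (vg.norm : ℝ) ≤ (2 * C ^ 2) * ((W.card : ℝ) ^ 2 * l ^ 2) := by
      rw [e]
      have : (C * (W.card * l)) ^ 2 = C ^ 2 * ((W.card : ℝ) ^ 2 * l ^ 2) := by ring
      linarith
    have h4 : (0 : ℝ) < vg.norm := by exact_mod_cast GaussianInt.norm_pos.2 hvg0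
    have hC0 : 0 < C := by linarith
    refine (Real.log_le_log h4 h3).trans ?_
    rw [Real.log_mul (x := 2 * C ^ 2) (by positivity) (by positivity),
      Real.log_mul (x := (W.card : ℝ) ^ 2) (by positivity) (by positivity),
      Real.log_pow, Real.log_pow, ← hl]
    have h5 := Real.log_le_sub_one_of_pos hl0
    push_cast
    linarith
  obtain ⟨F, hF1, hF2, hF3⟩ := hfam w vg hw2 hvg0 hlogv m
  have hpy : ∀ T ∈ F, ∀ p ∈ T, p ≤ y := by
    intro T hT p hp
    refine (hF1 T hT p hp).2.2.2.trans ?_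
    exact Nat.pow_le_pow_right (by omega) (Nat.pow_le_pow_right (by omega) (by omega))
  have hs := ap_sieve_prod W xg vg (y ^ 2) y hy1 F
    (fun T hT p hp => ⟨(hF1 T hT p hp).1, (hF1 T hT p hp).2.1, (hF1 T hT p hp).2.2.1⟩)
    hF2 (fun T hT p hp => hlt p (hF1 T hT p hp).1 (hF1 T hT p hp).2.1
      (le_trans (by exact_mod_cast hpy T hT p hp) hyexp)) B hBr hBW
  rw [hBcard] at hs
  have hcLS := Vale.Agent.P001.cLS_pos
  have hB0 : (0 : ℝ) ≤ (B₀.card : ℝ) := Nat.cast_nonneg _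
  have h1 : (B₀.card : ℝ) * 2 ^ m ≤ Vale.Agent.P001.cLS * (2 * (y : ℝ) ^ 2) := by
    refine (mul_le_mul_of_nonneg_left hF3 hB0).trans (hs.trans (le_of_eq ?_))
    rw [hyy]
    ring
  rw [hyy] at hJ
  have hLC : 0 < L ^ C := by positivity
  have h2 : (y : ℝ) ^ 2 * 2 ^ m ≤ L ^ C * (Vale.Agent.P001.cLS * (2 * (y : ℝ) ^ 2)) := by
    calc (y : ℝ) ^ 2 * 2 ^ m ≤ (L ^ C * B₀.card) * 2 ^ m :=
          mul_le_mul_of_nonneg_right hJ (by positivity)
      _ = L ^ C * (B₀.card * 2 ^ m) := by ring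
      _ ≤ _ := mul_le_mul_of_nonneg_left h1 hLC.le
  have h3 : (y : ℝ) ^ 2 * 2 ^ m ≤ (y : ℝ) ^ 2 * (2 * Vale.Agent.P001.cLS * L ^ C) := by
    linarith
  have h4 := le_of_mul_le_mul_left h3 (by positivity)
  linarith

end Vale.Agent.P015.R4.H929
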