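import Vale.Agent.P015.R4.H929.Main

/-! Sum sets, walks and infinite paths. -/

namespace Vale.Agent.P015.R4.H929

open Finset Vale.Agent.P015 Vale.Agent.P015.Cx Filter Topology
open scoped Pointwise

/-- a set that misses a class modulo each Gaussian prime of norm at most `X` -/
theorem card_image_lt {W : Finset GaussianInt} {X : ℝ}
    (h : ∀ π : GaussianInt, Prime π → (π.norm : ℝ) ≤ X →
      ∃ a : GaussianInt, ∀ w ∈ W, ¬ π ∣ w - a) {p : ℕ} (hp : p.Prime) (hp4 : p % 4 = 1)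
    (hpX : (p : ℝ) ≤ X) : (W.image (phi p (root p true))).card < p := by
  have : Fact p.Prime := ⟨hp⟩
  obtain ⟨π, hπ, hπn, hπd⟩ := exists_gprime hp (root_mul_root hp hp4 true)
  obtain ⟨a, ha⟩ := h π hπ (by rw [hπn]; exact_mod_cast hpX)
  have h3 : phi p (root p true) a ∉ W.image (phi p (root p true)) := by
    intro hmem
    rw [mem_image] at hmem
    obtain ⟨w, hw, hw2⟩ := hmem
    refine ha w hw (hπd _ ?_)
    rw [phi_sub, hw2, sub_self]
  have h4 := Finset.card_lt_univ_of_notMem h3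
  rwa [ZMod.card] at h4

theorem addEnergy_neg (A : Finset GaussianInt) :
    Finset.addEnergy A (-A) = Finset.addEnergy A A := by
  unfold Finset.addEnergy
  refine Finset.card_bij (fun x _ => ((x.1.1, x.1.2), (-x.2.2, -x.2.1))) ?_ ?_ ?_
  · rintro ⟨⟨a, b⟩, c, d⟩ h
    simp only [mem_filter, mem_product, Finset.mem_neg'] at h ⊢
    refine ⟨⟨h.1.1, h.1.2.2, h.1.2.1⟩, ?_⟩
    linear_combination h.2
  · rintro ⟨⟨a, b⟩, c, d⟩ _ ⟨⟨a', b'⟩, c', d'⟩ _ h
    simp only [Prod.mk.injEq, neg_inj] at h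
    rw [h.1.1, h.1.2, h.2.1, h.2.2]
  · rintro ⟨⟨a, b⟩, c, d⟩ h
    simp only [mem_filter, mem_product] at h
    refine ⟨⟨⟨a, b⟩, -d, -c⟩, ?_, by simp⟩
    simp only [mem_filter, mem_product, Finset.mem_neg', neg_neg]
    refine ⟨⟨h.1.1, h.1.2.2, h.1.2.1⟩, ?_⟩
    linear_combination h.2

/-- sum sets and difference sets of subsets are large -/
theorem sumset_bound {W A : Finset GaussianInt} (hA : A ⊆ W) {L : ℝ} (hL : 0 ≤ L)
    (hE : (Finset.addEnergy W W : ℝ) * L ≤ (W.card : ℝ) ^ 3) :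
    (A.card : ℝ) ^ 4 * L ≤ (W.card : ℝ) ^ 3 * ((A + A).card : ℝ) ∧
    (A.card : ℝ) ^ 4 * L ≤ (W.card : ℝ) ^ 3 * ((A - A).card : ℝ) := by
  have h1 : ((Finset.addEnergy A A : ℕ) : ℝ) ≤ Finset.addEnergy W W := by
    exact_mod_cast Finset.addEnergy_mono hA hA
  have key : ∀ B : Finset GaussianInt, (A.card : ℝ) ^ 4 ≤ (B.card : ℝ) * Finset.addEnergy A A →
      (A.card : ℝ) ^ 4 * L ≤ (W.card : ℝ) ^ 3 * (B.card : ℝ) := by
    intro B hB
    calc (A.card : ℝ) ^ 4 * L ≤ ((B.card : ℝ) * Finset.addEnergy A A) * L :=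
          mul_le_mul_of_nonneg_right hB hL
      _ ≤ ((B.card : ℝ) * Finset.addEnergy W W) * L := by
          refine mul_le_mul_of_nonneg_right ?_ hL
          exact mul_le_mul_of_nonneg_left h1 (Nat.cast_nonneg _)
      _ = (B.card : ℝ) * (Finset.addEnergy W W * L) := by ring
      _ ≤ (B.card : ℝ) * (W.card : ℝ) ^ 3 := mul_le_mul_of_nonneg_left hE (Nat.cast_nonneg _)
      _ = _ := mul_comm _ _
  constructor
  · refine key _ ?_
    have h2 := Finset.le_card_add_mul_addEnergy A A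
    have h3 : (A.card : ℝ) ^ 2 * (A.card : ℝ) ^ 2 ≤
        ((A + A).card : ℝ) * Finset.addEnergy A A := by exact_mod_cast h2
    calc (A.card : ℝ) ^ 4 = (A.card : ℝ) ^ 2 * (A.card : ℝ) ^ 2 := by ring
      _ ≤ _ := h3
  · refine key _ ?_
    have h2 := Finset.le_card_add_mul_addEnergy A (-A)
    rw [addEnergy_neg, Finset.card_neg, ← sub_eq_add_neg] at h2
    have h3 : (A.card : ℝ) ^ 2 * (A.card : ℝ) ^ 2 ≤
        ((A - A).card : ℝ) * Finset.addEnergy A A := by exact_mod_cast h2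
    calc (A.card : ℝ) ^ 4 = (A.card : ℝ) ^ 2 * (A.card : ℝ) ^ 2 := by ring
      _ ≤ _ := h3

/-- Sets. -/
theorem sets : ∃ c : ℝ, 0 < c ∧ ∃ n₀ : ℕ, 3 ≤ n₀ ∧ ∀ W : Finset GaussianInt,
    n₀ ≤ W.card → ∀ z : GaussianInt,
    (∀ w ∈ W, dist (GaussianInt.toComplex w) (GaussianInt.toComplex z) ≤
      W.card * Real.log W.card ^ c) →
    (∀ π : GaussianInt, Prime π → (π.norm : ℝ) ≤ Real.exp (Real.sqrt (Real.log W.card)) →
      ∃ a : GaussianInt, ∀ w ∈ W, ¬ π ∣ w - a) →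
    (Finset.addEnergy W W : ℝ) * Real.log W.card ^ c ≤ (W.card : ℝ) ^ 3 ∧
    ∀ A ⊆ W,
      (A.card : ℝ) ^ 4 * Real.log W.card ^ c ≤ (W.card : ℝ) ^ 3 * ((A + A).card : ℝ) ∧
      (A.card : ℝ) ^ 4 * Real.log W.card ^ c ≤ (W.card : ℝ) ^ 3 * ((A - A).card : ℝ) := by
  obtain ⟨c, hc, n₀, hn₀, h⟩ := energy_bound
  refine ⟨c, hc, n₀, hn₀, fun W hW z hz hπ => ?_⟩
  have h1 := h W hW z hz (fun p hp hp4 hpX => card_image_lt hπ hp hp4 hpX)
  refine ⟨h1, fun A hA => sumset_bound hA ?_ h1⟩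
  have : 0 ≤ Real.log W.card := Real.log_natCast_nonneg _
  positivity

/-- displacement of a walk -/
theorem dist_walk_le {D : ℝ} {n : ℕ} {g : ℕ → GaussianInt}
    (hg : ∀ j, j + 1 < n →
      dist (GaussianInt.toComplex (g j)) (GaussianInt.toComplex (g (j + 1))) ≤ D) :
    ∀ j, j < n → dist (GaussianInt.toComplex (g j)) (GaussianInt.toComplex (g 0)) ≤ D * j := by
  intro j
  induction j with
  | zero => intro _; simp
  | succ j ih =>
    intro hj
    have h1 := ih (by omega)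
    have h2 := hg j hj
    have h3 := dist_triangle (GaussianInt.toComplex (g (j + 1))) (GaussianInt.toComplex (g j))
      (GaussianInt.toComplex (g 0))
    rw [dist_comm] at h2
    push_cast
    linarith

/-- Walks. -/
theorem main : ∃ c : ℝ, 0 < c ∧
    (∃ n₀ : ℕ, ∀ W : Finset GaussianInt, n₀ ≤ W.card → ∀ z : GaussianInt,
      (∀ w ∈ W, dist (GaussianInt.toComplex w) (GaussianInt.toComplex z) ≤
        W.card * Real.log W.card ^ c) →
      (∀ π : GaussianInt, Prime π → (π.norm : ℝ) ≤ Real.exp (Real.sqrt (Real.log W.card)) →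
        ∃ a : GaussianInt, ∀ w ∈ W, ¬ π ∣ w - a) →
      (Finset.addEnergy W W : ℝ) * Real.log W.card ^ c ≤ (W.card : ℝ) ^ 3 ∧
      ∀ A ⊆ W,
        (A.card : ℝ) ^ 4 * Real.log W.card ^ c ≤ (W.card : ℝ) ^ 3 * ((A + A).card : ℝ) ∧
        (A.card : ℝ) ^ 4 * Real.log W.card ^ c ≤ (W.card : ℝ) ^ 3 * ((A - A).card : ℝ)) ∧
    (∀ D : ℝ, ∃ n₀ : ℕ, ∀ n : ℕ, n₀ ≤ n → ∀ g : ℕ → GaussianInt,
      (∀ i < n, ∀ j < n, g i = g j → i = j) →
      (∀ j, j + 1 < n →
        dist (GaussianInt.toComplex (g j)) (GaussianInt.toComplex (g (j + 1))) ≤ D) →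
      (∀ π : GaussianInt, Prime π → (π.norm : ℝ) ≤ Real.exp (Real.sqrt (Real.log n)) →
        ∃ a : GaussianInt, ∀ j < n, ¬ π ∣ g j - a) →
      (Finset.addEnergy ((range n).image g) ((range n).image g) : ℝ) * Real.log n ^ c ≤
        (n : ℝ) ^ 3 ∧
      ∀ A ⊆ (range n).image g,
        (A.card : ℝ) ^ 4 * Real.log n ^ c ≤ (n : ℝ) ^ 3 * ((A + A).card : ℝ) ∧
        (A.card : ℝ) ^ 4 * Real.log n ^ c ≤ (n : ℝ) ^ 3 * ((A - A).card : ℝ)) ∧
    (∀ D : ℝ, ∃ n₀ : ℕ, ∀ n : ℕ, n₀ ≤ n → ∀ γ : ℕ → {z : GaussianInt // Prime z},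
      IsInfinitePath D γ → ∀ m : ℕ,
      (∀ j < n, Real.exp (Real.sqrt (Real.log n)) < (((γ (m + j)).1.norm : ℤ) : ℝ)) →
      (Finset.addEnergy ((range n).image fun j => (γ (m + j)).1)
          ((range n).image fun j => (γ (m + j)).1) : ℝ) * Real.log n ^ c ≤ (n : ℝ) ^ 3 ∧
      ∀ A ⊆ (range n).image fun j => (γ (m + j)).1,
        (A.card : ℝ) ^ 4 * Real.log n ^ c ≤ (n : ℝ) ^ 3 * ((A + A).card : ℝ) ∧
        (A.card : ℝ) ^ 4 * Real.log n ^ c ≤ (n : ℝ) ^ 3 * ((A - A).card : ℝ)) := by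
  obtain ⟨c, hc, n₀, hn₀, h⟩ := sets
  have hwalk : ∀ D : ℝ, ∃ n₀ : ℕ, ∀ n : ℕ, n₀ ≤ n → ∀ g : ℕ → GaussianInt,
      (∀ i < n, ∀ j < n, g i = g j → i = j) →
      (∀ j, j + 1 < n →
        dist (GaussianInt.toComplex (g j)) (GaussianInt.toComplex (g (j + 1))) ≤ D) →
      (∀ π : GaussianInt, Prime π → (π.norm : ℝ) ≤ Real.exp (Real.sqrt (Real.log n)) →
        ∃ a : GaussianInt, ∀ j < n, ¬ π ∣ g j - a) →
      (Finset.addEnergy ((range n).image g) ((range n).image g) : ℝ) * Real.log n ^ c ≤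
        (n : ℝ) ^ 3 ∧
      ∀ A ⊆ (range n).image g,
        (A.card : ℝ) ^ 4 * Real.log n ^ c ≤ (n : ℝ) ^ 3 * ((A + A).card : ℝ) ∧
        (A.card : ℝ) ^ 4 * Real.log n ^ c ≤ (n : ℝ) ^ 3 * ((A - A).card : ℝ) := by
    intro D
    have hlog : Tendsto (fun n : ℕ => Real.log (n : ℝ) ^ c) atTop atTop :=
      (tendsto_rpow_atTop hc).comp (Real.tendsto_log_atTop.comp tendsto_natCast_atTop_atTop)
    obtain ⟨n₁, hn₁⟩ := Filter.eventually_atTop.1 (hlog.eventually_ge_atTop |D|)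
    refine ⟨max n₀ n₁, fun n hn g hinj hstep hmiss => ?_⟩
    have hcard : ((range n).image g).card = n := by
      rw [Finset.card_image_of_injOn, card_range]
      intro i hi j hj hij
      rw [mem_coe, mem_range] at hi hj
      exact hinj i hi j hj hij
    have hD := hn₁ n ((le_max_right _ _).trans hn)
    have h1 := h ((range n).image g) (by
      rw [hcard]
      exact (le_max_left _ _).trans hn) (g 0) (by
      intro w hw
      rw [mem_image] at hw
      obtain ⟨j, hj, rfl⟩ := hw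
      rw [mem_range] at hj
      rw [hcard]
      refine (dist_walk_le hstep j hj).trans ?_
      have hj' : (j : ℝ) ≤ n := by exact_mod_cast hj.le
      have h2 : D * j ≤ |D| * j := mul_le_mul_of_nonneg_right (le_abs_self D) (Nat.cast_nonneg j)
      have h3 : |D| * (j : ℝ) ≤ |D| * n := mul_le_mul_of_nonneg_left hj' (abs_nonneg D)
      have h4 : |D| * (n : ℝ) ≤ Real.log n ^ c * n :=
        mul_le_mul_of_nonneg_right hD (Nat.cast_nonneg n)
      linarith) (by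
      intro π hπ hπn
      rw [hcard] at hπn
      obtain ⟨a, ha⟩ := hmiss π hπ hπn
      refine ⟨a, fun w hw => ?_⟩
      rw [mem_image] at hw
      obtain ⟨j, hj, rfl⟩ := hw
      exact ha j (mem_range.1 hj))
    rw [hcard] at h1
    exact h1
  refine ⟨c, hc, ⟨n₀, h⟩, hwalk, fun D => ?_⟩
  obtain ⟨n₁, hn₁⟩ := hwalk D
  refine ⟨n₁, fun n hn γ hγ m hbig => ?_⟩
  refine hn₁ n hn (fun j => (γ (m + j)).1) ?_ ?_ ?_
  · intro i _ j _ hij
    have h1 := hγ.1 (Subtype.ext hij)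
    omega
  · intro j _
    exact (hγ.2 (m + j)).2
  · intro π hπ hπn
    refine ⟨0, fun j hj hdvd => ?_⟩
    rw [sub_zero] at hdvd
    have h1 : Associated π (γ (m + j)).1 := hπ.irreducible.associated_of_dvd
      (γ (m + j)).2.irreducible hdvd
    have h2 : π.norm = (γ (m + j)).1.norm := Zsqrtd.norm_eq_of_associated (by norm_num) h1
    have h3 := hbig j hj
    rw [← h2] at h3
    linarith

end Vale.Agent.P015.R4.H929
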