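import Vale.Agent.P015.R2.H731.AP

/-! The large sieve on a progression with products of primes `1 mod 4`: a set that misses one
residue class modulo one Gaussian prime above each such prime has density at most
`(log y) ^ (-c)` on long progressions. -/

namespace Vale.Agent.P015.R4.H929

open Finset Vale.Agent.P015 Vale.Agent.P015.Cx Vale.Agent.P015.R2.H731

/-- the large sieve on a progression, with products of primes -/
theorem ap_sieve_prod (S : Finset GaussianInt) (x v : GaussianInt) (J y : ℕ) (hy : 1 ≤ y)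
    (F : Finset (Finset ℕ))
    (hF : ∀ P ∈ F, ∀ p ∈ P, p.Prime ∧ p % 4 = 1 ∧ ¬ (p : ℤ) ∣ v.norm)
    (hFy : ∀ P ∈ F, ∏ p ∈ P, p ≤ y)
    (hlt : ∀ P ∈ F, ∀ p ∈ P, (S.image (phi p (root p true))).card < p)
    (B : Finset ℤ) (hB : ∀ j ∈ B, 0 ≤ j ∧ j < J) (hBS : ∀ j ∈ B, x + (j : GaussianInt) * v ∈ S) :
    (B.card : ℝ) * ∑ P ∈ F, ∏ p ∈ P, (1 : ℝ) / p ≤
      Vale.Agent.P001.cLS * (J + (y : ℝ) ^ 2) := by
  by_cases hBe : B = ∅
  · subst hBe
    have := Vale.Agent.P001.cLS_pos
    simp only [card_empty, Nat.cast_zero, zero_mul]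
    positivity
  obtain ⟨j0, hj0⟩ := Finset.nonempty_iff_ne_empty.2 hBe
  have hSpos : ∀ p : ℕ, 0 < (S.image (phi p (root p true))).card := by
    intro p
    rw [Finset.card_pos, image_nonempty]
    exact ⟨_, hBS j0 hj0⟩
  have key := Vale.Agent.P001.arith_large_sieve B 0 J (by
      intro n hn
      have := hB n hn
      omega) y hy F (fun T hT p hp => (hF T hT p hp).1) hFy
      (fun p => (S.image (phi p (root p true))).card)
      (fun T _ p _ => hSpos p) (fun T hT p hp => (hlt T hT p hp).le) (by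
      intro T hT p hp
      have hpp := (hF T hT p hp).1
      have : Fact p.Prime := ⟨hpp⟩
      have hphi : phi p (root p true) v ≠ 0 := by
        intro h0
        exact (hF T hT p hp).2.2
          (dvd_norm_of_phi_eq_zero (root_mul_root hpp (hF T hT p hp).2.1 true) h0)
      have hinj : Function.Injective (fun c : ZMod p =>
          phi p (root p true) x + c * phi p (root p true) v) := by
        intro a b hab
        have h1 : a * phi p (root p true) v = b * phi p (root p true) v := by
          simpa using hab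
        exact mul_right_cancel₀ hphi h1
      rw [← Finset.card_image_of_injective _ hinj]
      refine Finset.card_le_card ?_
      intro c hc
      rw [mem_image] at hc
      obtain ⟨a, ha, rfl⟩ := hc
      rw [mem_image] at ha
      obtain ⟨j, hj, rfl⟩ := ha
      rw [mem_image]
      refine ⟨_, hBS j hj, ?_⟩
      rw [phi_add, phi_intmul])
  refine le_trans ?_ key
  refine mul_le_mul_of_nonneg_left ?_ (Nat.cast_nonneg _)
  refine Finset.sum_le_sum fun T hT => ?_
  refine Finset.prod_le_prod (fun p hp => by positivity) fun p hp => ?_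
  have h1 : (0 : ℝ) < ((S.image (phi p (root p true))).card : ℝ) := by exact_mod_cast hSpos p
  have h2 : ((S.image (phi p (root p true))).card : ℝ) + 1 ≤ p := by
    exact_mod_cast hlt T hT p hp
  have h3 : (0 : ℝ) < p := by linarith
  have h4 : (p : ℝ) / ((S.image (phi p (root p true))).card : ℝ) - 1 =
      ((p : ℝ) - ((S.image (phi p (root p true))).card : ℝ)) /
        ((S.image (phi p (root p true))).card : ℝ) := by
    field_simp
  rw [h4]
  exact div_le_div₀ (by linarith) (by linarith) h1 (by linarith)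

/-- families of sets of primes: one prime from each of `m` consecutive blocks -/
theorem exists_family : ∃ M : ℕ, 2 ≤ M ∧ ∀ (w : ℕ) (v : GaussianInt), 2 ≤ w → v ≠ 0 →
    Real.log (v.norm : ℝ) ≤ w → ∀ m : ℕ, ∃ F : Finset (Finset ℕ),
      (∀ T ∈ F, ∀ p ∈ T, p.Prime ∧ p % 4 = 1 ∧ ¬ (p : ℤ) ∣ v.norm ∧ p ≤ w ^ M ^ m) ∧
      (∀ T ∈ F, ∏ p ∈ T, p ≤ w ^ M ^ (m + 1)) ∧
      (2 : ℝ) ^ m ≤ ∑ T ∈ F, ∏ p ∈ T, (1 : ℝ) / p := by
  obtain ⟨C₀, -, h⟩ := mertens_mod4
  obtain ⟨M₀, hM₀, -, hM⟩ := h 3 (by norm_num)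
  refine ⟨max M₀ 2, le_max_right _ _, ?_⟩
  set M := max M₀ 2 with hMdef
  have hM2 : 2 ≤ M := le_max_right _ _
  intro w v hw hv hlog m
  induction m with
  | zero =>
    refine ⟨{∅}, ?_, ?_, ?_⟩
    · intro T hT p hp
      rw [mem_singleton] at hT
      subst hT
      simp at hp
    · intro T hT
      rw [mem_singleton] at hT
      subst hT
      rw [prod_empty]
      exact Nat.one_le_pow _ _ (by omega)
    · simp
  | succ m ih =>
    obtain ⟨F, hF1, hF2, hF3⟩ := ih
    set a : ℕ := w ^ M ^ m with ha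
    have ha2 : 2 ≤ a := by
      have h1 : w ≤ w ^ M ^ m := Nat.le_self_pow (pow_ne_zero _ (by omega)) w
      omega
    have hwa : w ≤ a := Nat.le_self_pow (pow_ne_zero _ (by omega)) w
    have haM : a ^ M = w ^ M ^ (m + 1) := by
      rw [ha, ← pow_mul, pow_succ]
    set P : Finset ℕ := ((Ioc a (a ^ M)).filter (fun p => p.Prime ∧ p % 4 = 1)).filter
      (fun p => ¬ (p : ℤ) ∣ v.norm) with hP
    have hPmem : ∀ p ∈ P, a < p ∧ p ≤ a ^ M ∧ p.Prime ∧ p % 4 = 1 ∧ ¬ (p : ℤ) ∣ v.norm := by
      intro p hp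
      rw [hP, mem_filter, mem_filter, mem_Ioc] at hp
      exact ⟨hp.1.1.1, hp.1.1.2, hp.1.2.1, hp.1.2.2, hp.2⟩
    have hPsum : (2 : ℝ) ≤ ∑ p ∈ P, (1 : ℝ) / p := by
      have h1 : (3 : ℝ) ≤ ∑ p ∈ (Ioc a (a ^ M)).filter (fun p => p.Prime ∧ p % 4 = 1),
          (1 : ℝ) / p := by
        refine (hM a ha2).trans ?_
        refine Finset.sum_le_sum_of_subset_of_nonneg ?_ (fun _ _ _ => by positivity)
        refine Finset.filter_subset_filter _ ?_
        refine Finset.Ioc_subset_Ioc le_rfl ?_
        exact Nat.pow_le_pow_right (by omega) (le_max_left _ _)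
      have h2 := Finset.sum_filter_add_sum_filter_not
        ((Ioc a (a ^ M)).filter (fun p => p.Prime ∧ p % 4 = 1))
        (fun p : ℕ => ¬ (p : ℤ) ∣ v.norm) (fun p : ℕ => (1 : ℝ) / p)
      set P' : Finset ℕ := ((Ioc a (a ^ M)).filter (fun p => p.Prime ∧ p % 4 = 1)).filter
        (fun p => ¬ ¬ (p : ℤ) ∣ v.norm) with hP'
      have h3 : ∑ p ∈ P', (1 : ℝ) / p ≤ 1 := by
        have h4 : ∑ p ∈ P', Real.log p ≤ Real.log (v.norm : ℝ) := by
          refine sum_log_dvd_norm P' ?_ hv ?_
          · intro p hp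
            rw [hP', mem_filter, mem_filter] at hp
            exact hp.1.2.1
          · intro p hp
            rw [hP', mem_filter, not_not] at hp
            exact hp.2
        have hw0 : (0 : ℝ) < w := by
          have : 0 < w := by omega
          exact_mod_cast this
        have h5 : ∑ p ∈ P', (1 : ℝ) / p ≤ ∑ p ∈ P', Real.log p / w := by
          refine Finset.sum_le_sum fun p hp => ?_
          rw [hP', mem_filter, mem_filter, mem_Ioc] at hp
          have hp5 : w < p := by omega
          have hp3 : (3 : ℝ) ≤ p := by exact_mod_cast (show 3 ≤ p by omega)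
          have hlp : 1 ≤ Real.log p := by
            rw [Real.le_log_iff_exp_le (by linarith)]
            have := Real.exp_one_lt_d9
            linarith
          have hwp : (w : ℝ) ≤ p := by exact_mod_cast hp5.le
          exact div_le_div₀ (by linarith) hlp hw0 hwp
        rw [← Finset.sum_div] at h5
        refine h5.trans ?_
        rw [div_le_one hw0]
        exact h4.trans hlog
      have h6 : ∑ p ∈ P, (1 : ℝ) / p + ∑ p ∈ P', (1 : ℝ) / p =
        ∑ p ∈ (Ioc a (a ^ M)).filter (fun p => p.Prime ∧ p % 4 = 1), (1 : ℝ) / p := h2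
      linarith
    have hnot : ∀ T ∈ F, ∀ p ∈ P, p ∉ T := by
      intro T hT p hp hpT
      have h1 := (hF1 T hT p hpT).2.2.2
      have h2 := (hPmem p hp).1
      omega
    refine ⟨(F ×ˢ P).image (fun q => insert q.2 q.1), ?_, ?_, ?_⟩
    · intro T hT p hp
      rw [mem_image] at hT
      obtain ⟨⟨T', q⟩, hq, rfl⟩ := hT
      rw [mem_product] at hq
      rw [mem_insert] at hp
      rcases hp with rfl | hp
      · have h1 := hPmem _ hq.2
        exact ⟨h1.2.2.1, h1.2.2.2.1, h1.2.2.2.2, by rw [← haM]; exact h1.2.1⟩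
      · have h1 := hF1 T' hq.1 p hp
        refine ⟨h1.1, h1.2.1, h1.2.2.1, h1.2.2.2.trans ?_⟩
        rw [← haM]
        exact Nat.le_self_pow (by omega) a
    · intro T hT
      rw [mem_image] at hT
      obtain ⟨⟨T', q⟩, hq, rfl⟩ := hT
      rw [mem_product] at hq
      rw [prod_insert (hnot T' hq.1 q hq.2)]
      have h1 := (hPmem _ hq.2).2.1
      have h2 := hF2 T' hq.1
      rw [haM] at h1
      calc q * ∏ p ∈ T', p ≤ w ^ M ^ (m + 1) * w ^ M ^ (m + 1) := Nat.mul_le_mul h1 h2
        _ = w ^ (M ^ (m + 1) * 2) := by rw [pow_mul, sq]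
        _ ≤ w ^ (M ^ (m + 1) * M) :=
            Nat.pow_le_pow_right (by omega) (Nat.mul_le_mul_left _ hM2)
        _ = w ^ M ^ (m + 1 + 1) := by rw [← pow_succ]
    · rw [Finset.sum_image]
      · rw [Finset.sum_product]
        have h1 : ∀ T ∈ F, ∑ q ∈ P, ∏ p ∈ insert q T, (1 : ℝ) / p =
            (∏ p ∈ T, (1 : ℝ) / p) * ∑ q ∈ P, (1 : ℝ) / q := by
          intro T hT
          rw [Finset.mul_sum]
          refine Finset.sum_congr rfl fun q hq => ?_
          rw [prod_insert (hnot T hT q hq), mul_comm]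
        rw [Finset.sum_congr rfl h1, ← Finset.sum_mul, pow_succ]
        exact mul_le_mul hF3 hPsum (by norm_num) ((by positivity : (0 : ℝ) ≤ 2 ^ m).trans hF3)
      · rintro ⟨T, q⟩ hT ⟨T', q'⟩ hT' hTT
        rw [mem_coe, mem_product] at hT hT'
        have hTT' : insert q T = insert q' T' := hTT
        have hqT := hnot T hT.1 q hT.2
        have hqT' := hnot T' hT'.1 q' hT'.2
        have hqq : q = q' := by
          have h1 : q ∈ insert q' T' := by
            rw [← hTT']
            exact mem_insert_self _ _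
          rw [mem_insert] at h1
          rcases h1 with h1 | h1
          · exact h1
          · exact absurd h1 (hnot T' hT'.1 q hT.2)
        subst hqq
        have h2 : T = T' := by
          rw [← Finset.erase_insert hqT, hTT', Finset.erase_insert hqT']
        rw [h2]

end Vale.Agent.P015.R4.H929
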